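import Vale.Agent.P229.Final

/-!
# P229 (Yau, Ghomi): a smooth Riemannian metric near the origin of the plane without any local
smooth isometric immersion into Euclidean three-space.
-/

namespace Vale.Agent.Results.P229.NonRealizableMetric

open scoped ContDiff

/-- There is a smooth Riemannian metric on the plane, given by its coefficients `E, F, G`, such
that no open neighbourhood of the origin admits a smooth isometric immersion into `ℝ³`. -/
theorem result : ∃ E F G : ℝ × ℝ → ℝ, ContDiff ℝ ∞ E ∧ ContDiff ℝ ∞ F ∧ ContDiff ℝ ∞ G ∧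
    (∀ q, 0 < E q ∧ 0 < E q * G q - F q ^ 2) ∧
    ∀ U : Set (ℝ × ℝ), IsOpen U → (0 : ℝ × ℝ) ∈ U →
      ¬ ∃ Φ : ℝ × ℝ → EuclideanSpace ℝ (Fin 3), ContDiffOn ℝ ∞ Φ U ∧ ∀ q ∈ U,
        inner ℝ (fderiv ℝ Φ q (1, 0)) (fderiv ℝ Φ q (1, 0)) = E q ∧
        inner ℝ (fderiv ℝ Φ q (1, 0)) (fderiv ℝ Φ q (0, 1)) = F q ∧
        inner ℝ (fderiv ℝ Φ q (0, 1)) (fderiv ℝ Φ q (0, 1)) = G q :=
  _root_.P229.finalStatement

end Vale.Agent.Results.P229.NonRealizableMetric
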